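import Vale.Agent.Lib.P089.Interface

/-!
# P089, Part A2: the Cayley graph of `Gam` is a model with base `1`
-/

namespace P089

open scoped Classical
open MulOpposite

section A2

variable {S : Type}

theorem gen_mul_gen (Pg : PG S) (s : S) : gen Pg s * gen Pg s = 1 := by
  have h : (PresentedGroup.mk (rel Pg)) (FreeGroup.of s * FreeGroup.of s) = 1 :=
    PresentedGroup.one_of_mem (Or.inl ⟨s, rfl⟩)
  rw [map_mul] at h
  exact h

theorem wd_nil (Pg : PG S) : wd Pg [] = 1 := rfl

theorem wd_cons (Pg : PG S) (s : S) (w : List S) : wd Pg (s :: w) = gen Pg s * wd Pg w := by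
  simp [wd]

theorem wd_append (Pg : PG S) (w w' : List S) : wd Pg (w ++ w') = wd Pg w * wd Pg w' := by
  simp [wd]

theorem mk_word (Pg : PG S) (w : List S) :
    (PresentedGroup.mk (rel Pg)) (w.map FreeGroup.of).prod = wd Pg w := by
  rw [map_list_prod, List.map_map]
  rfl

theorem wd_closed (Pg : PG S) {x : Pg.P} {w : List S} (h : walk Pg.nb x w = some x) :
    wd Pg w = 1 := by
  rw [← mk_word]
  exact PresentedGroup.one_of_mem (Or.inr ⟨x, w, h, rfl⟩)

theorem go_nil {V : Type} (act : V → S → V) (v : V) : go act v [] = v := rfl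

theorem go_cons {V : Type} (act : V → S → V) (v : V) (s : S) (w : List S) :
    go act v (s :: w) = go act (act v s) w := rfl

theorem go_append {V : Type} (act : V → S → V) (v : V) (w w' : List S) :
    go act v (w ++ w') = go act (go act v w) w' := by
  simp [go, List.foldl_append]

theorem go_cay (Pg : PG S) (g : Gam Pg) (w : List S) : go (cay Pg) g w = g * wd Pg w := by
  induction w generalizing g with
  | nil => simp [go_nil, wd_nil]
  | cons s w ih => rw [go_cons, ih, wd_cons, cay, mul_assoc]

theorem exists_wd (Pg : PG S) (g : Gam Pg) : ∃ w, wd Pg w = g := by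
  have hg : g ∈ (⊤ : Subgroup (Gam Pg)) := Subgroup.mem_top g
  rw [← PresentedGroup.closure_range_of (rel Pg)] at hg
  induction hg using Subgroup.closure_induction with
  | mem x hx =>
    obtain ⟨s, rfl⟩ := hx
    exact ⟨[s], by simp [wd, gen]⟩
  | one => exact ⟨[], rfl⟩
  | mul x y _ _ hx hy =>
    obtain ⟨w, rfl⟩ := hx
    obtain ⟨w', rfl⟩ := hy
    exact ⟨w ++ w', wd_append _ _ _⟩
  | inv x _ hx =>
    obtain ⟨w, rfl⟩ := hx
    refine ⟨w.reverse, ?_⟩
    have h : ∀ w : List S, wd Pg w.reverse * wd Pg w = 1 := by
      intro w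
      induction w with
      | nil => simp [wd]
      | cons s w ih =>
        rw [List.reverse_cons, wd_append, wd_cons, wd_cons, wd_nil, mul_one, mul_assoc,
          ← mul_assoc (gen Pg s), gen_mul_gen, one_mul, ih]
    exact eq_inv_of_mul_eq_one_left (h w)

/-- the permutation of a model given by a colour -/
def sperm {V : Type} {act : V → S → V} (hinv : ∀ v s, act (act v s) s = v) (s : S) :
    Equiv.Perm V where
  toFun v := act v s
  invFun v := act v s
  left_inv v := hinv v s
  right_inv v := hinv v s

theorem lift_word {V : Type} {act : V → S → V} (hinv : ∀ v s, act (act v s) s = v)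
    (w : List S) (v : V) :
    unop (FreeGroup.lift (fun s => op (sperm hinv s)) (w.map FreeGroup.of).prod) v =
      go act v w := by
  induction w generalizing v with
  | nil => simp [go]
  | cons s w ih =>
    rw [List.map_cons, List.prod_cons, map_mul, unop_mul, Equiv.Perm.mul_apply, ih, go_cons,
      FreeGroup.lift_apply_of]
    rfl

/-- the right action of `Gam` on a set on which all closed words act trivially -/
noncomputable def ract (Pg : PG S) {V : Type} {act : V → S → V}
    (hinv : ∀ v s, act (act v s) s = v)
    (hcl : ∀ x w, walk Pg.nb x w = some x → ∀ v, go act v w = v) :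
    Gam Pg →* (Equiv.Perm V)ᵐᵒᵖ :=
  PresentedGroup.toGroup (f := fun s => op (sperm hinv s)) (by
    rintro r (⟨s, rfl⟩ | ⟨x, w, h, rfl⟩)
    · rw [map_mul, FreeGroup.lift_apply_of, ← op_mul, ← op_one]
      congr 1
      ext v
      exact hinv v s
    · rw [← op_unop (FreeGroup.lift (fun s => op (sperm hinv s)) (w.map FreeGroup.of).prod),
        ← op_one]
      congr 1
      ext v
      rw [lift_word, hcl x w h v]
      rfl)

theorem ract_gen (Pg : PG S) {V : Type} {act : V → S → V}
    (hinv : ∀ v s, act (act v s) s = v)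
    (hcl : ∀ x w, walk Pg.nb x w = some x → ∀ v, go act v w = v) (s : S) :
    ract Pg hinv hcl (gen Pg s) = op (sperm hinv s) := by
  unfold ract gen
  exact PresentedGroup.toGroup.of _

theorem ract_wd (Pg : PG S) {V : Type} {act : V → S → V}
    (hinv : ∀ v s, act (act v s) s = v)
    (hcl : ∀ x w, walk Pg.nb x w = some x → ∀ v, go act v w = v) (w : List S) (v : V) :
    unop (ract Pg hinv hcl (wd Pg w)) v = go act v w := by
  induction w generalizing v with
  | nil => simp [wd_nil, go_nil]
  | cons s w ih =>
    rw [wd_cons, map_mul, unop_mul, Equiv.Perm.mul_apply, ract_gen, ih, go_cons]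
    rfl

theorem ract_mul_gen (Pg : PG S) {V : Type} {act : V → S → V}
    (hinv : ∀ v s, act (act v s) s = v)
    (hcl : ∀ x w, walk Pg.nb x w = some x → ∀ v, go act v w = v) (g : Gam Pg) (s : S) (v : V) :
    unop (ract Pg hinv hcl (g * gen Pg s)) v = act (unop (ract Pg hinv hcl g) v) s := by
  rw [map_mul, unop_mul, Equiv.Perm.mul_apply, ract_gen]
  rfl

/-- Part A2, for one model -/
theorem model_gam (Pg : PG S) {V : Type} {act : V → S → V} (M : Model Pg V act) :
    ∃ M' : Model Pg (Gam Pg) (cay Pg), M'.base = 1 := by
  have hcl : ∀ x w, walk Pg.nb x w = some x → ∀ v, go act v w = v :=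
    fun x w h v => (M.full v x w x h).2 rfl
  refine ⟨{ base := 1
            inv := ?_
            full := ?_
            lev := fun g x => M.lev (unop (ract Pg M.inv hcl g) M.base) x
            ctr := fun g x => M.ctr (unop (ract Pg M.inv hcl g) M.base) x
            lev_nb := ?_
            ctr_nb := ?_
            lev_base := ?_
            ctr_conn := ?_
            peel := ?_ }, rfl⟩
  · intro g s
    unfold cay
    rw [mul_assoc, gen_mul_gen, mul_one]
  · intro g x w y h
    rw [go_cay, mul_eq_left]
    constructor
    · intro h1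
      have h2 := ract_wd Pg M.inv hcl w M.base
      rw [h1, map_one, unop_one, Equiv.Perm.one_apply] at h2
      exact (M.full M.base x w y h).1 h2.symm
    · rintro rfl
      exact wd_closed Pg h
  · intro g x s y h
    change M.lev (unop (ract Pg M.inv hcl (g * gen Pg s)) M.base) y = _
    rw [ract_mul_gen]
    exact M.lev_nb _ x s y h
  · intro g x s y h
    change M.ctr (unop (ract Pg M.inv hcl (g * gen Pg s)) M.base) y = _
    rw [ract_mul_gen]
    exact M.ctr_nb _ x s y h
  · intro g x y
    change M.lev (unop (ract Pg M.inv hcl 1) M.base) x ≤ _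
    rw [map_one, unop_one, Equiv.Perm.one_apply]
    exact M.lev_base _ _ _
  · intro g x
    exact M.ctr_conn _ _
  · intro g x y h1 h2
    exact M.peel _ x y h1 h2

theorem partA2 (hA : PartA) : PartA2 := by
  intro S Pg
  obtain ⟨V, act, ⟨M⟩⟩ := hA S Pg
  exact model_gam Pg M

end A2

end P089
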